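import Vale.Agent.P354XB.Defs

/-!
A local calculus for derivatives along words, with the weight l for each letter 0.
-/

set_option linter.all false

open scoped ContDiff
open Set Filter Topology

noncomputable section

namespace Vale.Agent.P354EN

open Vale.Agent.P354n (R4)
open Vale.Agent.P354H (X3 dt dx pd pdl e)
open Vale.Agent.P354A (dxl Pb)
open Vale.Agent.P354K (n0)
open Vale.Agent.P354XB (Pa Sa)

variable {E F : Type} [NormedAddCommGroup E] [NormedSpace ℝ E] [NormedAddCommGroup F]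
  [NormedSpace ℝ F]

/-- The derivative in the direction a. -/
def dv (a : E) (f : E → ℝ) (p : E) : ℝ := fderiv ℝ f p a

/-- The derivative along a word. -/
def dw (v : Fin 3 → E) : List (Fin 3) → (E → ℝ) → E → ℝ
  | [], f => f
  | j :: α, f => dw v α (dv (v j) f)

/-- Smooth at p, with bounds. -/
def B (v : Fin 3 → E) (l : ℝ) (n : ℕ) (f : E → ℝ) (p : E) (c : ℝ) : Prop :=
  ContDiffAt ℝ ∞ f p ∧ ∀ α : List (Fin 3), α.length ≤ n → |dw v α f p| ≤ c * l ^ n0 α

variable {v : Fin 3 → E} {l c d G : ℝ} {n m a b : ℕ} {f g : E → ℝ} {p : E}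

lemma dv_congr (h : f =ᶠ[𝓝 p] g) (a : E) : dv a f =ᶠ[𝓝 p] dv a g :=
  (h.fderiv (𝕜 := ℝ)).mono fun q k => by simp only [dv, k]

lemma dw_congr (α : List (Fin 3)) (h : f =ᶠ[𝓝 p] g) : dw v α f =ᶠ[𝓝 p] dw v α g := by
  induction α generalizing f g with
  | nil => exact h
  | cons j α ih => exact ih (dv_congr h _)

lemma sm_dv (hf : ContDiffAt ℝ ∞ f p) (a : E) : ContDiffAt ℝ ∞ (dv a f) p :=
  (hf.fderiv_right (m := ∞) le_rfl).clm_apply contDiffAt_const

lemma ev_dif (hf : ContDiffAt ℝ ∞ f p) : ∀ᶠ q in 𝓝 p, DifferentiableAt ℝ f q :=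
  ((hf.of_le (m := 1) (by simp)).eventually (by simp)).mono fun _ k => k.differentiableAt (by simp)

lemma n0_cons (j : Fin 3) (α : List (Fin 3)) : n0 (j :: α) = n0 [j] + n0 α := by
  simp only [n0, List.count_cons, List.count_nil]
  omega

lemma B.congr (h : B v l n f p c) (k : g =ᶠ[𝓝 p] f) : B v l n g p c :=
  ⟨h.1.congr_of_eventuallyEq k, fun α hα => by
    rw [(dw_congr α k).self_of_nhds]
    exact h.2 α hα⟩

lemma B.zero (h : B v l n f p c) : |f p| ≤ c := by
  simpa [dw, n0] using h.2 [] (Nat.zero_le _)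

lemma B.nn (h : B v l n f p c) : 0 ≤ c := (abs_nonneg _).trans h.zero

lemma B.mono (h : B v l n f p c) (hl : 0 ≤ l) (hm : m ≤ n) (hd : c ≤ d) : B v l m f p d :=
  ⟨h.1, fun α hα => (h.2 α (hα.trans hm)).trans
    (mul_le_mul_of_nonneg_right hd (pow_nonneg hl _))⟩

lemma B.up (h : B v 1 n f p c) (hl : 1 ≤ l) : B v l n f p c :=
  ⟨h.1, fun α hα => (h.2 α hα).trans
    (mul_le_mul_of_nonneg_left (pow_le_pow_left₀ zero_le_one hl _) h.nn)⟩

lemma B.der (h : B v l (n + 1) f p c) (j : Fin 3) : B v l n (dv (v j) f) p (c * l ^ n0 [j]) :=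
  ⟨sm_dv h.1 _, fun α hα => by
    have k := h.2 (j :: α) (by simpa using hα)
    rwa [n0_cons, pow_add, ← mul_assoc] at k⟩

lemma B.d1 (h : B v 1 (n + 1) f p c) (j : Fin 3) : B v 1 n (dv (v j) f) p c := by
  simpa using h.der j

lemma B_zero (hf : ContDiffAt ℝ ∞ f p) (h : |f p| ≤ c) : B v l 0 f p c :=
  ⟨hf, fun α hα => by
    obtain rfl := List.length_eq_zero_iff.1 (Nat.le_zero.1 hα)
    simpa [dw, n0] using h⟩

lemma B_succ (hf : ContDiffAt ℝ ∞ f p) (h : |f p| ≤ c)
    (k : ∀ j, B v l n (dv (v j) f) p (c * l ^ n0 [j])) : B v l (n + 1) f p c :=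
  ⟨hf, fun α hα => by
    cases α with
    | nil => simpa [dw, n0] using h
    | cons j α =>
      rw [n0_cons, pow_add, ← mul_assoc]
      exact (k j).2 α (by simpa using hα)⟩

lemma B_const (hl : 0 ≤ l) (r : ℝ) (h : |r| ≤ c) : B v l n (fun _ => r) p c := by
  induction n generalizing r c with
  | zero => exact B_zero contDiffAt_const h
  | succ n ih =>
    refine B_succ contDiffAt_const h fun j => (ih 0 ?_).congr (.of_forall fun q => ?_)
    · simpa using mul_nonneg ((abs_nonneg _).trans h) (pow_nonneg hl _)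
    · simp [dv]

lemma B_of_zero (hl : 0 ≤ l) (hc : 0 ≤ c) (h : f =ᶠ[𝓝 p] fun _ => 0) : B v l n f p c :=
  (B_const hl 0 (by simpa using hc)).congr h

lemma B.add (h : B v l n f p c) (k : B v l n g p d) :
    B v l n (fun q => f q + g q) p (c + d) := by
  induction n generalizing f g c d with
  | zero => exact B_zero (h.1.add k.1) ((abs_add_le _ _).trans (add_le_add h.zero k.zero))
  | succ n ih =>
    refine B_succ (h.1.add k.1) ((abs_add_le _ _).trans (add_le_add h.zero k.zero)) fun j => ?_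
    rw [add_mul]
    refine (ih (h.der j) (k.der j)).congr ?_
    filter_upwards [ev_dif h.1, ev_dif k.1] with q h1 h2
    simp only [dv, fderiv_fun_add h1 h2, ContinuousLinearMap.add_apply]

lemma B.neg (h : B v l n f p c) : B v l n (fun q => -f q) p c := by
  induction n generalizing f c with
  | zero => exact B_zero h.1.neg (by simpa using h.zero)
  | succ n ih =>
    refine B_succ h.1.neg (by simpa using h.zero) fun j => (ih (h.der j)).congr (.of_forall fun q => ?_)
    simp only [dv, fderiv_fun_neg, ContinuousLinearMap.neg_apply]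

lemma B.sub (h : B v l n f p c) (k : B v l n g p d) :
    B v l n (fun q => f q - g q) p (c + d) := by
  simpa only [sub_eq_add_neg] using h.add k.neg

lemma dv_mul (hf : DifferentiableAt ℝ f p) (hg : DifferentiableAt ℝ g p) (a : E) :
    dv a (fun q => f q * g q) p = dv a f p * g p + f p * dv a g p := by
  simp only [dv, fderiv_fun_mul hf hg, ContinuousLinearMap.add_apply,
    ContinuousLinearMap.smul_apply, smul_eq_mul]
  ring

lemma B.mul (hl : 0 ≤ l) (h : B v l n f p c) (k : B v l n g p d) :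
    B v l n (fun q => f q * g q) p (2 ^ n * (c * d)) := by
  induction n generalizing f g c d with
  | zero =>
    refine B_zero (h.1.mul k.1) ?_
    rw [abs_mul, pow_zero, one_mul]
    exact mul_le_mul h.zero k.zero (abs_nonneg _) h.nn
  | succ n ih =>
    refine B_succ (h.1.mul k.1) ?_ fun j => ?_
    · rw [abs_mul]
      exact (mul_le_mul h.zero k.zero (abs_nonneg _) h.nn).trans
        (le_mul_of_one_le_left (mul_nonneg h.nn k.nn) (one_le_pow₀ one_le_two))
    · refine (((ih (h.der j) (k.mono hl n.le_succ le_rfl)).add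
        (ih (h.mono hl n.le_succ le_rfl) (k.der j))).congr ?_).mono hl le_rfl (le_of_eq (by ring))
      filter_upwards [ev_dif h.1, ev_dif k.1] with q h1 h2 using dv_mul h1 h2 _

/-! Powers of G -/

lemma B.pw (hG : 2 ≤ G) (hl : 0 ≤ l) (h : B v l n f p (G ^ a)) (hm : m ≤ n) (hb : a ≤ b) :
    B v l m f p (G ^ b) :=
  h.mono hl hm (pow_le_pow_right₀ (by linarith) hb)

lemma B.pmul (hG : 2 ≤ G) (hl : 0 ≤ l) (h : B v l n f p (G ^ a)) (k : B v l n g p (G ^ b)) :
    B v l n (fun q => f q * g q) p (G ^ (n + a + b)) := by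
  refine (h.mul hl k).mono hl le_rfl ?_
  rw [add_assoc, pow_add, pow_add]
  exact mul_le_mul_of_nonneg_right (pow_le_pow_left₀ zero_le_two hG _) (mul_nonneg h.nn k.nn)

lemma B.padd (hG : 2 ≤ G) (hl : 0 ≤ l) (h : B v l n f p (G ^ a)) (k : B v l n g p (G ^ b)) :
    B v l n (fun q => f q + g q) p (G ^ (a + b + 1)) := by
  refine ((h.pw hG hl le_rfl (Nat.le_add_right a b)).add
    (k.pw hG hl le_rfl (Nat.le_add_left b a))).mono hl le_rfl ?_
  rw [pow_succ]
  nlinarith [pow_pos (show 0 < G by linarith) (a + b)]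

lemma B.psub (hG : 2 ≤ G) (hl : 0 ≤ l) (h : B v l n f p (G ^ a)) (k : B v l n g p (G ^ b)) :
    B v l n (fun q => f q - g q) p (G ^ (a + b + 1)) := by
  simpa only [sub_eq_add_neg] using h.padd hG hl k.neg

lemma inv_bd (v : Fin 3 → E) (n a : ℕ) : ∃ m, a ≤ m ∧ ∀ (G : ℝ) (f : E → ℝ) (p : E), 2 ≤ G →
    B v 1 n f p (G ^ a) → (G ^ a)⁻¹ ≤ f p → B v 1 n (fun q => (f q)⁻¹) p (G ^ m) := by
  have key : ∀ (G : ℝ) (f : E → ℝ) (p : E), 2 ≤ G → (G ^ a)⁻¹ ≤ f p →
      0 < f p ∧ |(f p)⁻¹| ≤ G ^ a := fun G f p hG h => by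
    have h0 : 0 < G ^ a := pow_pos (by linarith) a
    have h1 : 0 < f p := (inv_pos.2 h0).trans_le h
    exact ⟨h1, by rw [abs_of_pos (inv_pos.2 h1)]; exact inv_le_of_inv_le₀ h0 h⟩
  induction n with
  | zero => exact ⟨a, le_rfl, fun G f p hG h k =>
      B_zero (h.1.inv (key G f p hG k).1.ne') (key G f p hG k).2⟩
  | succ n ih =>
    obtain ⟨m, hm, ih⟩ := ih
    refine ⟨n + (n + m + m) + a, by omega, fun G f p hG h k => ?_⟩
    obtain ⟨h1, h2⟩ := key G f p hG k
    have h3 := ih G f p hG (h.mono zero_le_one n.le_succ le_rfl) k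
    refine B_succ (h.1.inv h1.ne') (h2.trans (pow_le_pow_right₀ (by linarith) (by omega))) fun j => ?_
    rw [one_pow, mul_one]
    refine ((h3.pmul hG zero_le_one h3).pmul hG zero_le_one (h.d1 j)).neg.congr ?_
    filter_upwards [ev_dif h.1, h.1.continuousAt.eventually_ne h1.ne'] with q q1 q2
    have := ((hasDerivAt_inv q2).comp_hasFDerivAt q q1.hasFDerivAt).fderiv
    simp only [dv]
    erw [this]
    simp only [ContinuousLinearMap.smul_apply, smul_eq_mul]
    field_simp

lemma dv_sqrt (hf : DifferentiableAt ℝ f p) (h : 0 < f p) (a : E) :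
    dv a (fun q => √(f q)) p = 1 / 2 * (√(f p) * ((f p)⁻¹ * dv a f p)) := by
  simp only [dv, fderiv_sqrt hf h.ne', ContinuousLinearMap.smul_apply, smul_eq_mul]
  have h1 := Real.sqrt_pos.2 h
  have h2 := Real.mul_self_sqrt h.le
  generalize √(f p) = s at *
  rw [← h2]
  field_simp

lemma sqrt_bd (v : Fin 3 → E) (n a : ℕ) : ∃ m, a ≤ m ∧ ∀ (G : ℝ) (f : E → ℝ) (p : E), 2 ≤ G →
    B v 1 n f p (G ^ a) → (G ^ a)⁻¹ ≤ f p → B v 1 n (fun q => √(f q)) p (G ^ m) := by
  have key : ∀ (G : ℝ) (f : E → ℝ) (p : E), 2 ≤ G → |f p| ≤ G ^ a → (G ^ a)⁻¹ ≤ f p →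
      0 < f p ∧ |√(f p)| ≤ G ^ a := fun G f p hG h0 h => by
    have h1 : 1 ≤ G ^ a := one_le_pow₀ (by linarith)
    refine ⟨(inv_pos.2 (by linarith)).trans_le h, ?_⟩
    rw [abs_of_nonneg (Real.sqrt_nonneg _)]
    exact Real.sqrt_le_iff.2 ⟨by linarith, by nlinarith [le_abs_self (f p)]⟩
  induction n with
  | zero => exact ⟨a, le_rfl, fun G f p hG h k =>
      B_zero (h.1.sqrt (key G f p hG h.zero k).1.ne') (key G f p hG h.zero k).2⟩
  | succ n ih =>
    obtain ⟨m, hm, ih⟩ := ih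
    obtain ⟨m', -, iv⟩ := inv_bd v n a
    refine ⟨n + 0 + (n + m + (n + m' + a)), by omega, fun G f p hG h k => ?_⟩
    obtain ⟨h1, h2⟩ := key G f p hG h.zero k
    have h0 := h.mono zero_le_one n.le_succ le_rfl
    refine B_succ (h.1.sqrt h1.ne') (h2.trans (pow_le_pow_right₀ (by linarith) (by omega))) fun j => ?_
    rw [one_pow, mul_one]
    refine ((B_const zero_le_one (1 / 2) (by norm_num [abs_of_pos])).pmul hG zero_le_one
      ((ih G f p hG h0 k).pmul hG zero_le_one
        ((iv G f p hG h0 k).pmul hG zero_le_one (h.d1 j)))).congr ?_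
    filter_upwards [ev_dif h.1, h.1.continuousAt.eventually (lt_mem_nhds h1)] with q q1 q2
      using dv_sqrt q1 q2 _

/-! Affine maps -/

lemma dv_aff (L : E →L[ℝ] F) (k : F) {g : F → ℝ} (hg : DifferentiableAt ℝ g (L p + k)) (a : E) :
    dv a (fun q => g (L q + k)) p = dv (L a) g (L p + k) := by
  have := (hg.hasFDerivAt.comp p (L.hasFDerivAt.add_const k)).fderiv
  simp only [dv]
  erw [this]
  rfl

lemma B.aff {u : Fin 3 → F} (L : E →L[ℝ] F) (k : F) (hL : ∀ j, L (v j) = u j) {g : F → ℝ}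
    (h : B u l n g (L p + k) c) : B v l n (fun q => g (L q + k)) p c := by
  have sm : ContDiffAt ℝ ∞ (fun q => L q + k) p := (L.contDiff.add contDiff_const).contDiffAt
  induction n generalizing g c with
  | zero => exact B_zero (h.1.comp p sm) h.zero
  | succ n ih =>
    refine B_succ (h.1.comp p sm) h.zero fun j => (ih (h.der j)).congr ?_
    filter_upwards [sm.continuousAt.eventually (ev_dif h.1)] with q q1
    rw [dv_aff L k q1, hL]

/-! The bridges -/

/-- The space directions in space-time. -/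
def v4 (j : Fin 3) : R4 := (0, e j)

lemma dw_v4 (α : List (Fin 3)) (f : R4 → ℝ) : dw v4 α f = dxl α f := by
  induction α generalizing f with
  | nil => rfl
  | cons j α ih => exact ih _

lemma dw_e (α : List (Fin 3)) (f : X3 → ℝ) : dw e α f = pdl α f := by
  induction α generalizing f with
  | nil => rfl
  | cons j α ih => exact ih _

lemma B_Pa {f : R4 → ℝ} {p : R4} : B v4 l n f p c ↔ ContDiffAt ℝ ∞ f p ∧ Pa l n f p c := by
  simp only [B, Pa, dw_v4]

lemma B_Pb {f : R4 → ℝ} {p : R4} : B v4 1 n f p c ↔ ContDiffAt ℝ ∞ f p ∧ Pb n f p c := by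
  simp only [B, Pb, dw_v4, one_pow, mul_one]

lemma B_Sa {f : X3 → ℝ} {p : X3} : B e l n f p c ↔ ContDiffAt ℝ ∞ f p ∧ Sa l n f p c := by
  simp only [B, Sa, dw_e]

lemma Pa_congr {f g : R4 → ℝ} {p : R4} (h : Pa l n f p c) (k : g =ᶠ[𝓝 p] f) : Pa l n g p c :=
  fun α hα => by
    rw [← dw_v4, (dw_congr α k).self_of_nhds, dw_v4]
    exact h α hα

/-- A function which is smooth on an open set and vanishes off a compact subset. -/
lemma cut {D C : Set E} (hD : IsOpen D) (hC : IsCompact C) (h : C ⊆ D)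
    (hf : ContDiffOn ℝ ∞ f D) (h0 : ∀ q ∉ C, f q = 0) : ContDiff ℝ ∞ f ∧ HasCompactSupport f := by
  refine ⟨contDiff_iff_contDiffAt.2 fun q => ?_, HasCompactSupport.intro hC h0⟩
  by_cases hq : q ∈ D
  · exact hf.contDiffAt (hD.mem_nhds hq)
  · refine (contDiffAt_const (c := (0 : ℝ))).congr_of_eventuallyEq ?_
    filter_upwards [hC.isClosed.isOpen_compl.mem_nhds fun k => hq (h k)] with x hx using h0 x hx

/-- Uniform bounds of a smooth function with compact support. -/
lemma good_bd (hf : ContDiff ℝ ∞ f) (hs : HasCompactSupport f) (v : Fin 3 → E) (n : ℕ) :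
    ∃ m : ℕ, ∀ p, B v 1 n f p (2 ^ m) := by
  induction n generalizing f with
  | zero =>
    obtain ⟨C, hC⟩ := hs.exists_bound_of_continuous hf.continuous
    obtain ⟨m, hm⟩ := pow_unbounded_of_one_lt C (one_lt_two (α := ℝ))
    exact ⟨m, fun p => B_zero hf.contDiffAt ((hC p).trans hm.le)⟩
  | succ n ih =>
    obtain ⟨C, hC⟩ := hs.exists_bound_of_continuous hf.continuous
    obtain ⟨m, hm⟩ := pow_unbounded_of_one_lt C (one_lt_two (α := ℝ))
    choose k hk using fun j => ih (f := dv (v j) f)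
      (contDiff_iff_contDiffAt.2 fun q => sm_dv hf.contDiffAt _) (hs.fderiv_apply ℝ (v j))
    refine ⟨m + ∑ j, k j, fun p => B_succ hf.contDiffAt ((hC p).trans (hm.le.trans
      (pow_le_pow_right₀ one_le_two (by omega)))) fun j => ?_⟩
    rw [one_pow, mul_one]
    exact (hk j p).pw le_rfl zero_le_one le_rfl
      ((Finset.single_le_sum (fun _ _ => Nat.zero_le _) (Finset.mem_univ j)).trans (by omega))

end Vale.Agent.P354EN
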