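import Vale.Agent.P354EN.Cal

/-!
The amplitude: smoothness, bounds, transport equation.
-/

set_option linter.all false

open scoped ContDiff
open Set Filter Topology

noncomputable section

namespace Vale.Agent.P354EN

open Vale.Agent.P354n (R4)
open Vale.Agent.P354H (X3 dt dx pd pdl e)
open Vale.Agent.P354C Vale.Agent.P354C.Ix
open Vale.Agent.P354A (dxl Pb cmp)
open Vale.Agent.P354GT (Fu)
open Vale.Agent.P354XB

variable {n : ℕ} {T δ R w G β : ℝ} {c π : ℝ → ℝ} {U : R4 → Ix → ℝ} {α : X3 → Ix → ℝ} {p : R4}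

lemma box_open (a b v0 v1 r : ℝ) : IsOpen (Box a b v0 v1 r) :=
  (isOpen_Ioo.preimage continuous_fst).inter
    ((isOpen_Ioo.preimage (continuous_fst.add continuous_snd.fst)).inter
      (isOpen_lt continuous_snd.snd.norm continuous_const))

lemma win_open (R w r : ℝ) : IsOpen (Win R w r) :=
  (isOpen_Ioo.preimage continuous_fst).inter (isOpen_lt continuous_snd.norm continuous_const)

lemma cmp_app {E : Type} (u : E → Ix → ℝ) (i : Ix) (p : E) : cmp u i p = u p i := rfl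

/-- The map to (v, y). -/
def Lv : R4 →L[ℝ] X3 :=
  (ContinuousLinearMap.fst ℝ ℝ X3 + (ContinuousLinearMap.fst ℝ ℝ (ℝ × ℝ)).comp
    (ContinuousLinearMap.snd ℝ ℝ X3)).prod
    ((ContinuousLinearMap.snd ℝ ℝ (ℝ × ℝ)).comp (ContinuousLinearMap.snd ℝ ℝ X3))

lemma Lv_app (p : R4) : Lv p = (p.1 + p.2.1, p.2.2) := rfl

def L0 : X3 →L[ℝ] R4 := ContinuousLinearMap.inr ℝ ℝ X3
def Lt : R4 →L[ℝ] R4 := L0.comp Lv

lemma Lv_v4 (j : Fin 3) : Lv (v4 j) = e j := by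
  simp [Lv_app, v4]

lemma L0_e (j : Fin 3) : L0 (e j) = v4 j := rfl

lemma Lt_v4 (j : Fin 3) : Lt (v4 j) = v4 j := by
  rw [Lt, ContinuousLinearMap.comp_apply, Lv_v4, L0_e]

lemma Lt_app (T : ℝ) (p : R4) : Lt p + (T, -T, 0) = (T, p.1 + p.2.1 - T, p.2.2) := by
  show (((0 : ℝ), p.1 + p.2.1, p.2.2) : R4) + (T, -T, 0) = _
  simp [sub_eq_add_neg]

/-- The vector n. -/
def nv : R4 := (1, -1, 0, 0)

lemma Lv_nv : Lv nv = 0 := by simp [Lv_app, nv, Prod.ext_iff]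

lemma Lt_nv : Lt nv = 0 := by rw [Lt, ContinuousLinearMap.comp_apply, Lv_nv, map_zero]

lemma dt_sub (f : R4 → ℝ) (p : R4) : dt f p - dx 0 f p = dv nv f p := by
  simp only [dt, dx, dv, ← map_sub]
  congr 1
  simp [nv, e, Prod.ext_iff]

lemma dfr_one (U : R4 → Ix → ℝ) (p : R4) (i : Ix) : dfr U p 1 i = dv nv (cmp U i) p := rfl

lemma mu_bd (n : ℕ) : ∃ m, ∀ (G : ℝ) (U : R4 → Ix → ℝ) (p : R4), 2 ≤ G → G⁻¹ ≤ U p O →
    G⁻¹ ≤ detP (U p) → (∀ i, B v4 1 n (cmp U i) p G) →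
    B v4 1 n (fun q => mu (U q)) p (G ^ m) ∧ B v4 1 n (fun q => (mu (U q))⁻¹) p (G ^ m) := by
  obtain ⟨m1, -, h1⟩ := sqrt_bd v4 n (n + 1 + 1 + (n + 1 + 1) + 1)
  obtain ⟨m2, -, h2⟩ := inv_bd v4 n 1
  obtain ⟨m3, k3, h3⟩ := inv_bd v4 n (n + m1 + m2 + 2)
  refine ⟨m3, fun G U p hG hO hd hU => ?_⟩
  have hU' : ∀ i, B v4 1 n (cmp U i) p (G ^ 1) := by simpa using hU
  have G0 : 0 < G := by linarith
  have G1 : 1 ≤ G := by linarith
  have a1 := h1 G (fun q => detP (U q)) p hG (((hU' P11).pmul hG zero_le_one (hU' P22)).psub hG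
    zero_le_one ((hU' P12).pmul hG zero_le_one (hU' P21)))
    ((inv_anti₀ G0 (le_self_pow₀ G1 (by omega))).trans hd)
  have a2 := (a1.pmul hG zero_le_one (h2 G (cmp U O) p hG (hU' O) (by rwa [pow_one]))).pw hG
    zero_le_one le_rfl (Nat.le_add_right _ 2)
  have a3 : B v4 1 n (fun q => mu (U q)) p (G ^ (n + m1 + m2 + 2)) :=
    a2.congr (.of_forall fun q => div_eq_mul_inv _ _)
  refine ⟨a3.pw hG zero_le_one le_rfl k3, h3 G _ p hG a3 ?_⟩
  have b1 : G⁻¹ ≤ √(detP (U p)) := Real.le_sqrt_of_sq_le (le_trans (by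
    rw [sq]
    exact mul_le_of_le_one_left (inv_pos.2 G0).le (inv_le_one_of_one_le₀ G1)) hd)
  have b2 : U p O ≤ G := (le_abs_self _).trans (hU O).zero
  refine (inv_anti₀ (pow_pos G0 2) (pow_le_pow_right₀ G1 (by omega))).trans ?_
  rw [sq, mul_inv, ← div_eq_mul_inv]
  exact div_le_div₀ (Real.sqrt_nonneg _) b1 ((inv_pos.2 G0).trans_le hO) b2

/-- The domain of the slab. -/
abbrev Dm (T δ R w : ℝ) : Set R4 := Box (-δ) (T + δ) (R - 3 * w) (R + 4 * w) 6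

lemma slab_sm (h : Slab n T δ R w G β c π U) (hp : p ∈ Dm T δ R w) (i : Ix) :
    ContDiffAt ℝ ∞ (cmp U i) p :=
  (h.fu.1 i).contDiffAt ((box_open _ _ _ _ _).mem_nhds hp)

lemma slab_B (h : Slab n T δ R w G β c π U) (hp : p ∈ Dm T δ R w) (i : Ix) :
    B v4 1 n (cmp U i) p G :=
  B_Pb.2 ⟨slab_sm h hp i, ((h.bd p hp).2.2.2.2.2 i).1⟩

lemma top_mem (hT : 0 < T) (hδ : 0 < δ) (hp : p ∈ Dm T δ R w) :
    Lt p + (T, -T, 0) ∈ Dm T δ R w := by
  rw [Lt_app]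
  exact ⟨⟨by linarith, by linarith⟩, by simpa using hp.2.1, hp.2.2⟩

lemma amp_eq (U : R4 → Ix → ℝ) (T : ℝ) (α : X3 → Ix → ℝ) (i : Ix) : cmp (amp U T α) i =
    fun q => cmp α i (Lv q + 0) * (mu (U q) * (mu (U (Lt q + (T, -T, 0))))⁻¹) := by
  funext q
  rw [add_zero, Lt_app, ← div_eq_mul_inv]
  rfl

lemma amp_bd (n : ℕ) : ∃ m, ∀ (T δ R w G β : ℝ) (c π : ℝ → ℝ) (U : R4 → Ix → ℝ)
    (α : X3 → Ix → ℝ) (p : R4) (i : Ix), 2 ≤ G → 0 < T → 0 < δ → Slab n T δ R w G β c π U →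
    Prf n R w G α → p ∈ Dm T δ R w → B v4 1 n (cmp (amp U T α) i) p (G ^ m) := by
  obtain ⟨m, hm⟩ := mu_bd n
  refine ⟨n + 1 + (n + m + m), fun T δ R w G β c π U α p i hG hT hδ h hα hp => ?_⟩
  have k := fun q (hq : q ∈ Dm T δ R w) =>
    hm G U q hG (h.bd q hq).1 (h.bd q hq).2.1 (slab_B h hq)
  rw [amp_eq]
  refine B.pmul hG zero_le_one (B.aff Lv 0 Lv_v4 ?_) ((k p hp).1.pmul hG zero_le_one
    (B.aff (g := fun q => (mu (U q))⁻¹) Lt _ Lt_v4 (k _ (top_mem hT hδ hp)).2))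
  rw [pow_one]
  exact B_Sa.2 ⟨(hα.sm i).contDiffAt, hα.bd i _⟩

lemma mu_trans (hs : ∀ i, DifferentiableAt ℝ (cmp U i) p) (hO : 0 < U p O) (hd : 0 < detP (U p))
    (hF : Full (U p) (dfr U p)) :
    dv nv (fun q => mu (U q)) p = -(U p Y11 + U p Y22) * mu (U p) := by
  have e0 := hF.eqN O
  have e1 := hF.eqN P11
  have e2 := hF.eqN P12
  have e3 := hF.eqN P21
  have e4 := hF.eqN P22
  simp only [resN, cN, angN, linN, quadN, angS, linS, quadS, List.map, List.sum_cons, List.sum_nil,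
    dfr_one] at e0 e1 e2 e3 e4
  push_cast at e0 e1 e2 e3 e4
  have d1 : HasFDerivAt (fun q => detP (U q)) _ p :=
    ((hs P11).hasFDerivAt.mul (hs P22).hasFDerivAt).sub
      ((hs P12).hasFDerivAt.mul (hs P21).hasFDerivAt)
  have d2 : dv nv (fun q => detP (U q)) p =
      (2 * U p omb - 2 * (U p Y11 + U p Y22)) * detP (U p) := by
    simp only [dv] at e1 e2 e3 e4 ⊢
    rw [d1.fderiv]
    simp only [ContinuousLinearMap.sub_apply, ContinuousLinearMap.add_apply,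
      ContinuousLinearMap.smul_apply, smul_eq_mul, cmp_app, detP]
    linear_combination U p P22 * e1 + U p P11 * e4 - U p P21 * e2 - U p P12 * e3
  have d3 : dv nv (fun q => (cmp U O q)⁻¹) p = -(U p O ^ 2)⁻¹ * dv nv (cmp U O) p := by
    have := ((hasDerivAt_inv hO.ne').comp_hasFDerivAt p (hs O).hasFDerivAt).fderiv
    simp only [dv]
    erw [this]
    rfl
  have d4 := dv_mul (d1.differentiableAt.sqrt hd.ne') ((hs O).inv hO.ne') nv
  erw [d3, dv_sqrt d1.differentiableAt hd, d2] at d4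
  simp only [mu, div_eq_mul_inv]
  refine d4.trans ?_
  have e5 : dv nv (cmp U O) p = U p O * U p omb := by linarith
  rw [e5]
  simp only [Pi.inv_apply, cmp_app]
  field_simp
  ring

lemma amp_trans (hG : 2 ≤ G) (hT : 0 < T) (hδ : 0 < δ) (h : Slab n T δ R w G β c π U)
    (hα : Prf n R w G α) (hp : p ∈ Dm T δ R w) (i : Ix) :
    dt (cmp (amp U T α) i) p =
      dx 0 (cmp (amp U T α) i) p - (U p Y11 + U p Y22) * amp U T α p i := by
  obtain ⟨m, hm⟩ := mu_bd 0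
  have k := fun q (hq : q ∈ Dm T δ R w) => hm G U q hG (h.bd q hq).1 (h.bd q hq).2.1
    fun i => (slab_B h hq i).mono zero_le_one (Nat.zero_le _) le_rfl
  have G0 : 0 < G⁻¹ := inv_pos.2 (by linarith)
  have d1 : DifferentiableAt ℝ (cmp α i) (Lv p + 0) := ((hα.sm i).differentiable (by simp)) _
  have d2 := (k p hp).1.1.differentiableAt (by simp)
  have d3 := (k _ (top_mem hT hδ hp)).2.1.differentiableAt (by simp)
  have d4 := d1.comp p (Lv.differentiableAt.add_const 0)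
  have d5 := d3.comp p (Lt.differentiableAt.add_const (T, -T, 0))
  have d6 := dv_mul d4 (d2.mul d5) nv
  erw [dv_mul d2 d5, dv_aff Lv 0 d1, dv_aff Lt _ d3, Lv_nv, Lt_nv,
    mu_trans (fun i => (slab_sm h hp i).differentiableAt (by simp)) (G0.trans_le (h.bd p hp).1)
      (G0.trans_le (h.bd p hp).2.1) (h.fu.2 p hp).2.2] at d6
  have e1 := congrFun (amp_eq U T α i) p
  rw [eq_sub_iff_add_eq, ← sub_eq_zero, add_sub_right_comm, dt_sub, show amp U T α p i = _ from e1,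
    amp_eq]
  erw [d6]
  simp only [dv, map_zero, Function.comp]
  ring

lemma y_sym {u : Ix → ℝ} {du : Fin 4 → Ix → ℝ} (hF : Full u du) : u Y12 = u Y21 := by
  have e0 := hF.tor 2 3 0
  have e1 := hF.tor 2 3 1
  simp [torC, Gam, E, dEof, Fin.sum_univ_four] at e0 e1
  linarith

lemma amp_zero (hα : Prf n R w G α)
    (hp : p.1 + p.2.1 ≤ R - w ∨ R + 2 * w ≤ p.1 + p.2.1 ∨ 2 ≤ ‖p.2.2‖) : amp U T α p = 0 := by
  funext i
  rw [amp, hα.supp (p.1 + p.2.1, p.2.2) hp]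
  exact zero_mul _

end Vale.Agent.P354EN
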