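import Vale.Agent.P354EN.Amp

/-!
The cut-off functions and the global background.
-/

set_option linter.all false

open scoped ContDiff
open Set Filter Topology

noncomputable section

namespace Vale.Agent.P354EN

open Vale.Agent.P354n (R4)
open Vale.Agent.P354H (X3 dt dx pd pdl e Good)
open Vale.Agent.P354C Vale.Agent.P354C.Ix
open Vale.Agent.P354A (dxl Pb cmp)
open Vale.Agent.P354GT (Fu)
open Vale.Agent.P354K (n0)
open Vale.Agent.P354XB

variable {n : ℕ} {T δ R w G β : ℝ} {c π θ : ℝ → ℝ} {U : R4 → Ix → ℝ} {α : X3 → Ix → ℝ} {p : R4}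

def bb : ContDiffBump (0 : X3) := ⟨5, 11 / 2, by norm_num, by norm_num⟩

def ka (w : ℝ) (z : X3) : ℝ := bb (2 * z.1 / w - 1, z.2)

lemma ka_sm (w : ℝ) : ContDiff ℝ ∞ (ka w) :=
  bb.contDiff.comp ((((contDiff_const.mul contDiff_fst).div_const w).sub contDiff_const).prodMk
    contDiff_snd)

lemma ka_one (hw : 0 < w) {z : X3} (h1 : z.1 ∈ Icc (-2 * w) (3 * w)) (h2 : ‖z.2‖ ≤ 5) :
    ka w z = 1 := by
  refine bb.one_of_mem_closedBall (mem_closedBall_zero_iff.2 (max_le ?_ h2))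
  show |2 * z.1 / w - 1| ≤ 5
  have a1 : -4 ≤ 2 * z.1 / w := (le_div_iff₀ hw).2 (by linarith [h1.1])
  have a2 : 2 * z.1 / w ≤ 6 := (div_le_iff₀ hw).2 (by linarith [h1.2])
  exact abs_le.2 ⟨by linarith, by linarith⟩

lemma ka_zero (hw : 0 < w) {z : X3}
    (h : ¬(z.1 ∈ Icc (-(9 / 4) * w) (13 / 4 * w) ∧ ‖z.2‖ ≤ 11 / 2)) : ka w z = 0 := by
  refine bb.zero_of_le_dist (not_lt.1 fun k => h ?_)
  rw [dist_zero_right] at k
  obtain ⟨k1, k2⟩ := max_lt_iff.1 k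
  obtain ⟨k3, k4⟩ := abs_lt.1 (show |2 * z.1 / w - 1| < 11 / 2 from k1)
  have a1 := (lt_div_iff₀ hw).1 (show -(9 / 2) < 2 * z.1 / w by linarith)
  have a2 := (div_lt_iff₀ hw).1 (show 2 * z.1 / w < 13 / 2 by linarith)
  exact ⟨⟨by linarith, by linarith⟩, k2.le⟩

lemma ka_cs (hw : 0 < w) : HasCompactSupport (ka w) :=
  HasCompactSupport.intro (isCompact_Icc.prod (isCompact_closedBall (0 : ℝ × ℝ) (11 / 2)))
    fun z hz => ka_zero hw fun k => hz ⟨k.1, mem_closedBall_zero_iff.2 k.2⟩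

/-- The cut-off in v and y. -/
def ch (R w : ℝ) (p : R4) : ℝ := ka w (Lv p + (-R, 0))

lemma ch_sm (R w : ℝ) : ContDiff ℝ ∞ (ch R w) := (ka_sm w).comp (Lv.contDiff.add contDiff_const)

lemma ch_abs (R w : ℝ) (p : R4) : |ch R w p| ≤ 1 := by
  rw [ch, ka, abs_of_nonneg bb.nonneg]
  exact bb.le_one

lemma ch_one (hw : 0 < w) (h1 : p.1 + p.2.1 ∈ Icc (R - 2 * w) (R + 3 * w)) (h2 : ‖p.2.2‖ ≤ 5) :
    ch R w p = 1 :=
  ka_one hw (by simpa [Lv_app] using ⟨by linarith [h1.1], by linarith [h1.2]⟩)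
    (by simpa [Lv_app] using h2)

/-- The closed set which carries everything. -/
def Zc (R w : ℝ) : Set R4 :=
  {p | p.1 + p.2.1 ∈ Icc (R - 9 / 4 * w) (R + 13 / 4 * w) ∧ ‖p.2.2‖ ≤ 11 / 2}

lemma ch_zero (hw : 0 < w) (h : p ∉ Zc R w) : ch R w p = 0 :=
  ka_zero hw fun k => h (by
    simp only [Lv_app, Prod.fst_add, Prod.snd_add, add_zero] at k
    exact ⟨⟨by linarith [k.1.1], by linarith [k.1.2]⟩, k.2⟩)

lemma amp_zc (hw : 0 < w) (hα : Prf n R w G α) (h : p ∉ Zc R w) : amp U T α p = 0 := by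
  refine amp_zero hα ?_
  by_contra k
  simp only [not_or, not_le] at k
  exact h ⟨⟨by linarith [k.1], by linarith [k.2.1]⟩, by linarith [k.2.2]⟩

lemma zc_closed (R w : ℝ) : IsClosed (Zc R w) :=
  (isClosed_Icc.preimage (continuous_fst.add continuous_snd.fst)).inter
    (isClosed_le continuous_snd.snd.norm continuous_const)

lemma zc_mem (hw : 0 < w) (h : p ∈ Zc R w) (ht : p.1 ∈ Ioo (-δ) (T + δ)) : p ∈ Dm T δ R w :=
  ⟨ht, ⟨by linarith [h.1.1], by linarith [h.1.2]⟩, by linarith [h.2]⟩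

lemma zc_compact (a b R w : ℝ) : IsCompact {p ∈ Zc R w | p.1 ∈ Icc a b} := by
  have k := ((isCompact_Icc (a := a) (b := b)).prod ((isCompact_Icc (a := R - 9 / 4 * w)
    (b := R + 13 / 4 * w)).prod (isCompact_closedBall (0 : ℝ × ℝ) (11 / 2)))).image
    (f := fun q : R4 => ((q.1, q.2.1 - q.1, q.2.2) : R4)) (by fun_prop)
  refine k.of_isClosed_subset ((zc_closed R w).inter (isClosed_Icc.preimage continuous_fst))
    fun p hp => ⟨(p.1, p.1 + p.2.1, p.2.2), ⟨hp.2, hp.1.1, mem_closedBall_zero_iff.2 hp.1.2⟩, ?_⟩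
  simp

lemma ch_bd (hw : 0 < w) (n : ℕ) : ∃ k : ℕ, ∀ (R : ℝ) (p : R4),
    B v4 1 n (ch R w) p (2 ^ k) ∧ B v4 1 n (dt (ch R w)) p (2 ^ k) := by
  obtain ⟨k, hk⟩ := good_bd (ka_sm w) (ka_cs hw) e (n + 1)
  refine ⟨k, fun R p => ⟨B.aff Lv _ Lv_v4 ((hk _).mono zero_le_one n.le_succ le_rfl),
    (B.aff Lv (-R, 0) Lv_v4 ((hk _).d1 0)).congr (.of_forall fun q => ?_)⟩⟩
  refine (dv_aff Lv (-R, 0) ((ka_sm w).differentiable (by simp) _) (1, 0)).trans ?_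
  congr 1
  simp [Lv_app, e, Prod.ext_iff]

/-- The cut-off in time. -/
structure Th (T δ : ℝ) (θ : ℝ → ℝ) : Prop where
  sm : ContDiff ℝ ∞ θ
  one : ∀ t ∈ Ioo (-(3 / 4) * δ) (T + 3 / 4 * δ), θ t = 1
  zero : ∀ t ∉ Icc (-(7 / 8) * δ) (T + 7 / 8 * δ), θ t = 0

lemma th_ex (hT : 0 < T) (hδ : 0 < δ) : ∃ θ, Th T δ θ := by
  let b : ContDiffBump (T / 2) := ⟨T / 2 + 3 / 4 * δ, T / 2 + 7 / 8 * δ, by linarith, by linarith⟩
  refine ⟨b, b.contDiff, fun t ht => b.one_of_mem_closedBall ?_,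
    fun t ht => b.zero_of_le_dist (not_lt.1 fun k => ht ?_)⟩
  · show |t - T / 2| ≤ T / 2 + 3 / 4 * δ
    exact abs_le.2 ⟨by linarith [ht.1], by linarith [ht.2]⟩
  · obtain ⟨k1, k2⟩ := abs_lt.1 (show |t - T / 2| < T / 2 + 7 / 8 * δ from k)
    exact ⟨by linarith, by linarith⟩

lemma Th.ev (h : Th T δ θ) (hp : p.1 ∈ Ioo (-(3 / 4) * δ) (T + 3 / 4 * δ)) :
    ∀ᶠ q : R4 in 𝓝 p, θ q.1 = 1 :=
  (continuous_fst.continuousAt.eventually (isOpen_Ioo.mem_nhds hp)).mono fun q k => h.one _ k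

/-- A function on the slab which vanishes off Zc, times the cut-off in time. -/
lemma Th.cut (h : Th T δ θ) (hw : 0 < w) (hδ : 0 < δ) {f : R4 → ℝ}
    (hf : ∀ q ∈ Dm T δ R w, ContDiffAt ℝ ∞ f q) (h0 : ∀ q ∉ Zc R w, f q = 0) :
    (ContDiff ℝ ∞ fun q : R4 => θ q.1 * f q) ∧ HasCompactSupport fun q : R4 => θ q.1 * f q := by
  refine P354EN.cut (box_open _ _ _ _ _) (zc_compact (-(7 / 8) * δ) (T + 7 / 8 * δ) R w)
    (fun q hq => zc_mem hw hq.1 ⟨by linarith [hq.2.1], by linarith [hq.2.2]⟩)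
    (fun q hq => ((h.sm.comp contDiff_fst).contDiffAt.mul (hf q hq)).contDiffWithinAt)
    fun q hq => ?_
  by_cases k : q ∈ Zc R w
  · rw [h.zero _ fun k' => hq ⟨k, k'⟩, zero_mul]
  · rw [h0 q k, mul_zero]

lemma Th.eq (h : Th T δ θ) (hδ : 0 < δ) (hp : p.1 ∈ Icc 0 (T + δ / 2)) (f : R4 → ℝ) :
    (fun q : R4 => θ q.1 * f q) =ᶠ[𝓝 p] f :=
  (h.ev ⟨by linarith [hp.1], by linarith [hp.2]⟩).mono fun q k => by simp only [k, one_mul]

lemma ev_zero (hw : 0 < w) (hδ : 0 < δ) (hp : p.1 ∈ Icc 0 (T + δ / 2)) (k : p ∉ Dm T δ R w)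
    {f : R4 → ℝ} (h0 : ∀ q ∉ Zc R w, f q = 0) : f =ᶠ[𝓝 p] fun _ => 0 := by
  filter_upwards [(zc_closed R w).isOpen_compl.mem_nhds fun k' =>
    k (zc_mem hw k' ⟨by linarith [hp.1], by linarith [hp.2]⟩)] with q hq using h0 q hq

lemma dv_zero (a : R4) : dv a (fun _ : R4 => (0 : ℝ)) = fun _ => 0 := by
  funext q
  simp [dv]

lemma Th.bd (h : Th T δ θ) (hw : 0 < w) (hδ : 0 < δ) (hp : p.1 ∈ Icc 0 (T + δ / 2)) {f : R4 → ℝ}
    (h0 : ∀ q ∉ Zc R w, f q = 0) {x : ℝ} (hx : 0 ≤ x) (hf : p ∈ Dm T δ R w → B v4 1 n f p x) :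
    Pb n (fun q : R4 => θ q.1 * f q) p x := by
  refine (B_Pb.1 (B.congr ?_ (h.eq hδ hp f))).2
  by_cases k : p ∈ Dm T δ R w
  exacts [hf k, B_of_zero zero_le_one hx (ev_zero hw hδ hp k h0)]

lemma Th.bdt (h : Th T δ θ) (hw : 0 < w) (hδ : 0 < δ) (hp : p.1 ∈ Icc 0 (T + δ / 2)) {f : R4 → ℝ}
    (h0 : ∀ q ∉ Zc R w, f q = 0) {x : ℝ} (hx : 0 ≤ x)
    (hf : p ∈ Dm T δ R w → B v4 1 n (dt f) p x) :
    Pb n (dt fun q : R4 => θ q.1 * f q) p x := by
  refine (B_Pb.1 (B.congr (f := dt f) ?_ (dv_congr (h.eq hδ hp f) (1, 0)))).2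
  by_cases k : p ∈ Dm T δ R w
  · exact hf k
  · exact B_of_zero zero_le_one hx ((dv_congr (ev_zero hw hδ hp k h0) (1, 0)).trans
      (by rw [dv_zero]))

lemma dw_smul (v : Fin 3 → R4) (a : List (Fin 3)) (r : ℝ) (f : R4 → ℝ) :
    dw v a (r • f) = r • dw v a f := by
  induction a generalizing f with
  | nil => rfl
  | cons j a ih =>
    rw [dw, dw, ← ih]
    congr 1
    funext q
    simp [dv, fderiv_const_smul_field]

/-- Scaled directions. -/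
def vz (x y : ℝ) (j : Fin 3) : R4 := (if j = 0 then x else y) • v4 j

lemma dw_vz (x y : ℝ) (a : List (Fin 3)) (f : R4 → ℝ) :
    dw (vz x y) a f = (x ^ n0 a * y ^ (a.length - n0 a)) • dxl a f := by
  induction a generalizing f with
  | nil => simp [dw, dxl, n0]
  | cons j a ih =>
    have : n0 a ≤ a.length := List.count_le_length
    have e1 : dv (vz x y j) f = (if j = 0 then x else y) • dx j f := funext fun q => map_smul _ _ _
    rw [dw, e1, dw_smul, ih, smul_smul, n0_cons, List.length_cons]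
    congr 1
    by_cases hj : j = 0
    · subst hj
      rw [if_pos rfl, show n0 [0] = 1 from rfl, add_comm 1, Nat.add_sub_add_right]
      ring
    · rw [if_neg hj, show n0 [j] = 0 by simp [n0, hj], zero_add, Nat.sub_add_comm this]
      ring

lemma B_Pz {l th x : ℝ} (hl : 0 < l) (ht : 0 < th) {f : R4 → ℝ} :
    B (vz l⁻¹ th⁻¹) 1 n f p x ↔ ContDiffAt ℝ ∞ f p ∧ Pz l th n f p x := by
  refine and_congr_right fun _ => forall₂_congr fun a _ => ?_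
  rw [dw_vz, one_pow, mul_one, Pi.smul_apply, smul_eq_mul, abs_mul, abs_of_pos (by positivity),
    inv_pow, inv_pow, ← mul_inv, inv_mul_le_iff₀ (by positivity), mul_comm]

lemma pz_mono {l l' th x y : ℝ} {m : ℕ} {f : R4 → ℝ} (h : Pz l th n f p x) (hl : 0 ≤ l)
    (ht : 0 ≤ th) (k : l ≤ l') (hm : m ≤ n) (hx : x ≤ y) : Pz l' th m f p y := fun a ha => by
  have x0 : 0 ≤ x := by simpa [n0] using (abs_nonneg _).trans (h [] (Nat.zero_le _))
  exact (h a (ha.trans hm)).trans (mul_le_mul hx (by gcongr) (by positivity) (x0.trans hx))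

lemma pz_pb {l th x : ℝ} {f : R4 → ℝ} (h : Pb n f p x) (hl : 1 ≤ l) (ht : 1 ≤ th) :
    Pz l th n f p x := fun a ha => (h a ha).trans (le_mul_of_one_le_right
  ((abs_nonneg _).trans (h [] (Nat.zero_le _))) (one_le_mul_of_one_le_of_one_le (one_le_pow₀ hl)
    (one_le_pow₀ ht)))

/-- The global background and amplitude. -/
def Kb (θ : ℝ → ℝ) (R w : ℝ) (U : R4 → Ix → ℝ) (p : R4) (i : Ix) : ℝ := θ p.1 * (ch R w p * U p i)
def ab (θ : ℝ → ℝ) (U : R4 → Ix → ℝ) (T : ℝ) (α : X3 → Ix → ℝ) (p : R4) (i : Ix) : ℝ :=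
  θ p.1 * amp U T α p i

lemma bgd (hw : 0 < w) (hw1 : w ≤ 1 / 4) (n : ℕ) : ∃ k M0 : ℕ, ∀ M ≥ M0,
    ∀ (T δ R G β : ℝ) (c π θ : ℝ → ℝ) (U : R4 → Ix → ℝ) (α : X3 → Ix → ℝ), 2 ≤ G → 0 < T →
      0 < δ → (∀ t, 0 ≤ c t) → Slab (n + 1) T δ R w G β c π U → Prf (n + 1) R w G α → Th T δ θ →
      Bgd n (T + δ / 2) (G ^ M) (fun t => 2 ^ k * c t) (Kb θ R w U) (ab θ U T α) := by
  obtain ⟨k, hk⟩ := ch_bd hw n
  obtain ⟨m, hm⟩ := amp_bd (n + 1)
  obtain ⟨j, hj⟩ : ∃ j : ℕ, 2 ^ (n + k) ≤ j := ⟨_, le_rfl⟩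
  refine ⟨n + k, 2 * (n + k + 1) + 1 + (m + (n + (1 + 1 + 1) + m) + 1) + j,
    fun M hM T δ R G β c π θ U α hG hT hδ hc h hα hθ => ?_⟩
  have z1 : ∀ i, ∀ q ∉ Zc R w, ch R w q * U q i = 0 := fun i q hq => by
    rw [ch_zero hw hq, zero_mul]
  have z2 : ∀ i, ∀ q ∉ Zc R w, cmp (amp U T α) i q = 0 := fun i q hq =>
    congrFun (amp_zc hw hα hq) i
  have GM : 0 ≤ G ^ M := pow_nonneg (by linarith) _
  have c1 : ∀ p, B v4 1 n (ch R w) p (G ^ k) ∧ B v4 1 n (dt (ch R w)) p (G ^ k) := fun p =>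
    ⟨(hk R p).1.mono zero_le_one le_rfl (pow_le_pow_left₀ zero_le_two hG _),
      (hk R p).2.mono zero_le_one le_rfl (pow_le_pow_left₀ zero_le_two hG _)⟩
  have u1 : ∀ p ∈ Dm T δ R w, ∀ i, B v4 1 n (cmp U i) p (G ^ 1) := fun p hp i =>
    (slab_B h hp i).mono zero_le_one n.le_succ (pow_one G).ge
  have am := fun p hp i => hm T δ R w G β c π U α p i hG hT hδ h hα hp
  obtain ⟨th, t1, hr⟩ := h.rate
  have t0 : 0 < th := one_pos.trans_le t1.1
  have G0 : 0 < G := by linarith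
  have g1 : G ≤ G ^ M := le_self_pow₀ (by linarith) (by omega)
  have kn : ∀ i, 0 ≤ kp th i := fun i => by
    unfold kp
    split_ifs <;> positivity
  have kb : ∀ p : R4, p.1 ∈ Icc 0 (T + δ / 2) → ∀ i x y, 0 ≤ x → 2 ^ (n + k) * x ≤ y →
      (p ∈ Dm T δ R w → Pz G th (n + 1) (cmp U i) p (x * kp th i)) →
      Pz (G ^ M) th n (cmp (Kb θ R w U) i) p (y * kp th i) := fun p hp i x y hx hy hb => by
    refine pz_mono ((B_Pz G0 t0).1 (B.congr (c := 2 ^ n * (2 ^ k * (x * kp th i))) ?_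
      (hθ.eq hδ hp fun q => ch R w q * U q i))).2 G0.le t0.le g1 le_rfl ((le_of_eq (by ring)).trans
        (mul_le_mul_of_nonneg_right hy (kn i)))
    by_cases hq : p ∈ Dm T δ R w
    · exact ((B_Pz G0 t0).2 ⟨(hk R p).1.1, pz_pb (B_Pb.1 (hk R p).1).2 (by linarith) t1.1⟩).mul
        zero_le_one ((B_Pz G0 t0).2 ⟨slab_sm h hq i, fun a ha => hb hq a (ha.trans n.le_succ)⟩)
    · exact B_of_zero zero_le_one (by have := kn i; positivity) (ev_zero hw hδ hp hq (z1 i))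
  have kz : ∀ p : R4, 1 < |p.1 + p.2.1 - R| → ∀ i, Kb θ R w U p i = 0 := fun p hp i => by
    rw [Kb, z1 i p fun k => ?_, mul_zero]
    rcases lt_abs.1 hp with hp | hp
    exacts [by linarith [k.1.2], by linarith [k.1.1]]
  have lg : 0 ≤ Real.log G := Real.log_nonneg (by linarith)
  refine ⟨fun i => hθ.cut hw hδ (fun q hq => (ch_sm R w).contDiffAt.mul (slab_sm h hq i)) (z1 i),
    fun i => hθ.cut hw hδ (fun q hq => (am q hq i).1) (z2 i), fun p i h1 h2 => ?_,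
    ⟨th, ⟨t1.1, t1.2.trans g1⟩, fun p hp i => ⟨fun h1 h2 => kb p hp i _ _ (hc _) le_rfl fun hq =>
      (hr p hq i).1 h1 h2, fun hi => kb p hp i _ _ lg ?_ fun hq => (hr p hq i).2 hi⟩⟩,
    ⟨R, fun p hp i _ => kz p hp i⟩,
    fun p hp i => ⟨?_, ?_, ?_, ?_⟩, fun p hp i => ?_, R, fun p hp => ?_⟩
  · rw [ab, amp, hα.pol _ i h1 h2, zero_mul, mul_zero]
  · rw [Real.log_pow]
    exact mul_le_mul_of_nonneg_right (by exact_mod_cast hj.trans (by omega)) lg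
  · exact hθ.bd hw hδ hp (z1 i) GM fun hq =>
      ((c1 p).1.pmul hG zero_le_one (u1 p hq i)).pw hG zero_le_one le_rfl (by omega)
  · refine hθ.bdt hw hδ hp (z1 i) GM fun hq => ?_
    have u2 : B v4 1 n (dt (cmp U i)) p (G ^ 1) := B_Pb.2 ⟨sm_dv (slab_sm h hq i) _, fun a ha =>
      (((h.bd p hq).2.2.2.2.2 i).2 a (ha.trans n.le_succ)).trans (pow_one G).ge⟩
    refine ((((c1 p).2.pmul hG zero_le_one (u1 p hq i)).padd hG zero_le_one
      ((c1 p).1.pmul hG zero_le_one u2)).pw hG zero_le_one le_rfl (by omega)).congr ?_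
    filter_upwards [ev_dif (slab_sm h hq i)] with q q1
      using dv_mul ((ch_sm R w).differentiable (by simp) q) q1 (1, 0)
  · exact hθ.bd hw hδ hp (z2 i) GM fun hq => (am p hq i).pw hG zero_le_one n.le_succ (by omega)
  · refine hθ.bdt hw hδ hp (z2 i) GM fun hq => ?_
    refine ((((am p hq i).d1 0).psub hG zero_le_one (((u1 p hq Y11).padd hG zero_le_one
      (u1 p hq Y22)).pmul hG zero_le_one ((am p hq i).mono zero_le_one n.le_succ le_rfl))).pw hG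
      zero_le_one le_rfl (by omega)).congr ?_
    filter_upwards [(box_open _ _ _ _ _).mem_nhds hq] with q q1 using amp_trans hG hT hδ h hα q1 i
  · have e1 : cmp (ab θ U T α) i =ᶠ[𝓝 p] cmp (amp U T α) i := hθ.eq hδ hp _
    have e2 : ab θ U T α p i = amp U T α p i := e1.self_of_nhds
    rw [dt_sub, (dv_congr e1 nv).self_of_nhds, e2]
    by_cases hq : p ∈ Dm T δ R w
    · rw [← dt_sub, amp_trans hG hT hδ h hα hq i]
      by_cases k0 : p.1 + p.2.1 ≤ R - w ∨ R + 2 * w ≤ p.1 + p.2.1 ∨ 2 ≤ ‖p.2.2‖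
      · simp [amp_zero hα k0]
      · simp only [not_or, not_le] at k0
        simp only [Kb, hθ.one p.1 ⟨by linarith [hp.1], by linarith [hp.2]⟩, one_mul,
          ch_one (R := R) (p := p) hw ⟨by linarith [k0.1], by linarith [k0.2.1]⟩
            (by linarith [k0.2.2]), y_sym (h.fu.2 p hq).2.2]
        exact ⟨by ring, by ring⟩
    · have e3 := ev_zero hw hδ hp hq (z2 i)
      rw [(dv_congr e3 nv).self_of_nhds, dv_zero, show amp U T α p i = 0 from e3.self_of_nhds]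
      simp
  · have g2 : 2 ≤ G ^ M := hG.trans (le_self_pow₀ (by linarith) (by omega))
    funext i
    rw [ab, amp_zero hα, Pi.zero_apply, mul_zero]
    rcases hp with hp | hp
    · rcases lt_abs.1 hp with hp | hp
      exacts [.inr (.inl (by linarith)), .inl (by linarith)]
    · exact .inr (.inr (by linarith))

end Vale.Agent.P354EN
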