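import Vale.Agent.P354EN.Cut

/-!
From the global form to the local form: CORE and SUPP give SLAB.
-/

set_option linter.all false

open scoped ContDiff
open MeasureTheory Set Filter Topology

noncomputable section

namespace Vale.Agent.P354EN

open Vale.Agent.P354n (R4)
open Vale.Agent.P354H (X3 dt dx pd pdl e Good sl)
open Vale.Agent.P354C Vale.Agent.P354C.Ix
open Vale.Agent.P354A (dxl Pb cmp Eqn)
open Vale.Agent.P354J (dsl fd)
open Vale.Agent.P354K (n0)
open Vale.Agent.P354GT (Fu)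
open Vale.Agent.P354XB

variable {n : ℕ} {T δ R w G β ν : ℝ} {c π θ : ℝ → ℝ} {U V : R4 → Ix → ℝ} {α : X3 → Ix → ℝ}
  {p : R4}

lemma dfr_congr (h : U =ᶠ[𝓝 p] V) : dfr U p = dfr V p := by
  funext k i
  rw [dfr, dfr, h.self_of_nhds, EventuallyEq.fderiv_eq (h.mono fun q k => congrFun k i)]

lemma cn_congr {u u' : X3 → Ix → ℝ} {z : X3} (h : u =ᶠ[𝓝 z] u') (k : Cn u' z) : Cn u z := by
  have e1 : ∀ i j, pd j (fun x => u x i) z = pd j (fun x => u' x i) z := fun i j => by
    rw [pd, pd, EventuallyEq.fderiv_eq (h.mono fun q k => congrFun k i)]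
  have e2 : dsl u z = dsl u' z := by
    funext k i
    simp only [dsl, fd, e1, h.self_of_nhds]
  rwa [Cn, e2, h.self_of_nhds]

lemma int_le {f : ℝ → ℝ} (hf : Continuous f) (h0 : ∀ t, 0 ≤ f t) {a b : ℝ} (ha : 0 ≤ a)
    (hb : a ≤ b) : ∫ t in (0 : ℝ)..a, f t ≤ ∫ t in (0 : ℝ)..b, f t :=
  intervalIntegral.integral_mono_interval le_rfl ha hb (.of_forall h0) (hf.intervalIntegrable _ _)

lemma gro (h : Gro (T + δ) G ν c) (hT : 0 < T) (hδ : 0 < δ) {k M : ℕ} (hM : 2 ^ k ≤ M) :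
    Gro (T + δ / 2) (G ^ M) ν fun t => 2 ^ k * c t := by
  have G1 : 1 ≤ G := by linarith [h.hG]
  have g1 : G ≤ G ^ M := le_self_pow₀ G1 (by have := Nat.one_le_two_pow (n := k); omega)
  have c1 : Continuous fun t => ν + c t / ν := continuous_const.add (h.cont.div_const _)
  have k1 : (1 : ℝ) ≤ 2 ^ k := one_le_pow₀ one_le_two
  refine ⟨continuous_const.mul h.cont, fun t => mul_nonneg (by positivity) (h.nn t),
    ⟨by linarith, by linarith [h.hT.2]⟩, h.hG.trans g1, ⟨h.hν.1, h.hν.2.1,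
      h.hν.2.2.trans (mul_le_mul_of_nonneg_left g1 h.hν.1.le)⟩, ?_⟩
  calc ∫ t in (0 : ℝ)..T + δ / 2, (ν + 2 ^ k * c t / ν)
      ≤ ∫ t in (0 : ℝ)..T + δ / 2, 2 ^ k * (ν + c t / ν) := by
        refine intervalIntegral.integral_mono_on (by linarith) ((continuous_const.add
          ((continuous_const.mul h.cont).div_const _)).intervalIntegrable _ _)
          ((continuous_const.mul c1).intervalIntegrable _ _) fun t _ => ?_
        rw [mul_add, mul_div_assoc]
        nlinarith [h.hν.1]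
    _ ≤ 2 ^ k * Real.log G := by
        rw [intervalIntegral.integral_const_mul]
        exact mul_le_mul_of_nonneg_left ((int_le c1 (fun t => add_nonneg h.hν.1.le
          (div_nonneg (h.nn t) h.hν.1.le)) (by linarith) (by linarith)).trans h.int) (by positivity)
    _ ≤ _ := by
        rw [Real.log_pow]
        exact mul_le_mul_of_nonneg_right (by exact_mod_cast hM) (Real.log_nonneg G1)

lemma travel (hg : Gro (T + δ) G ν c) (h : Slab n T δ R w G β c π U) (hT : 0 < T) (hδ : 0 < δ) :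
    ∫ t in (0 : ℝ)..T + δ / 2, (|π t| + G⁻¹) ^ 2 ≤ 2 * (|β| + 1) := by
  have G0 : 0 < G := by linarith [hg.hG]
  have c1 : Continuous fun t => π t ^ 2 := h.cπ.pow 2
  have g1 : G⁻¹ ≤ 1 := inv_le_one_of_one_le₀ (by linarith [hg.hG])
  calc _ ≤ ∫ t in (0 : ℝ)..T + δ / 2, (2 * π t ^ 2 + 2 * G⁻¹ ^ 2) := by
        refine intervalIntegral.integral_mono_on (by linarith)
          (((h.cπ.abs.add continuous_const).pow 2).intervalIntegrable _ _)
          (((continuous_const.mul c1).add continuous_const).intervalIntegrable _ _) fun t _ => ?_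
        nlinarith [sq_nonneg (|π t| - G⁻¹), sq_abs (π t)]
    _ ≤ _ := by
        have c2 : Continuous fun t => 2 * π t ^ 2 := continuous_const.mul c1
        rw [intervalIntegral.integral_add (c2.intervalIntegrable _ _)
          (continuous_const.intervalIntegrable _ _), intervalIntegral.integral_const_mul,
          intervalIntegral.integral_const, smul_eq_mul]
        have a1 := (int_le c1 (fun t => sq_nonneg _) (by linarith)
          (show T + δ / 2 ≤ T + δ by linarith)).trans h.int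
        have a2 : (T + δ / 2) * G⁻¹ ≤ 1 := by
          rw [← div_eq_mul_inv, div_le_one G0]
          linarith [hg.hT.2]
        nlinarith [le_abs_self β, inv_pos.2 G0]

lemma det_pos {u v : Ix → ℝ} {E : ℝ} (hG : 2 ≤ G) (hE : E * G ^ 5 ≤ 1) (hd : G⁻¹ ≤ detP u)
    (hu : ∀ i, |u i| ≤ G) (hv : ∀ i ∈ [P11, P12, P21, P22], |v i| ≤ E) : 0 < detP (u + v) := by
  have G0 : 0 < G := by linarith
  have b : ∀ {x y X Y : ℝ}, |x| ≤ X → |y| ≤ Y → |x * y| ≤ X * Y := fun h k => by
    rw [abs_mul]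
    exact mul_le_mul h k (abs_nonneg _) ((abs_nonneg _).trans h)
  have v1 := hv P11 (by simp)
  have v2 := hv P12 (by simp)
  have v3 := hv P21 (by simp)
  have v4 := hv P22 (by simp)
  have E0 : 0 ≤ E := (abs_nonneg _).trans v1
  have g3 : 8 ≤ G ^ 3 := le_trans (by norm_num) (pow_le_pow_left₀ zero_le_two hG 3)
  have e1 : 8 * (E * G * G) ≤ 1 := by nlinarith [mul_nonneg (mul_nonneg E0 G0.le) G0.le]
  have e2 : 8 * (E * G) ≤ G⁻¹ := by
    rw [← one_div, le_div_iff₀ G0]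
    linarith
  have e3 : E ≤ G := by nlinarith [mul_nonneg E0 G0.le]
  have e4 : E * E ≤ E * G := mul_le_mul_of_nonneg_left e3 E0
  simp only [detP, Pi.add_apply] at hd ⊢
  nlinarith [(abs_le.1 (b (hu P11) v4)).1, (abs_le.1 (b v1 (hu P22))).1, (abs_le.1 (b v1 v4)).1,
    (abs_le.1 (b (hu P12) v3)).2, (abs_le.1 (b v2 (hu P21))).2, (abs_le.1 (b v2 v3)).2,
    inv_pos.2 G0]

lemma win_mem (hT : 0 < T) (hδ : 0 < δ) {x : X3} : ((0, x) : R4) ∈ Dm T δ R w ↔ x ∈ Win R w 6 :=
  ⟨fun h => ⟨by simpa using h.2.1, h.2.2⟩,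
    fun h => ⟨⟨by linarith, by linarith⟩, by simpa using h.1, h.2⟩⟩

theorem extn (hC : CORE) (hS : SUPP) : SLAB := by
  intro β n
  have hβ : 0 < |β| + 1 := by positivity
  refine ⟨1 / (640 * (|β| + 1)), by positivity, fun w hw => ?_⟩
  have hw0 := hw.1
  have hw2 : w * (640 * (|β| + 1)) ≤ 1 := (le_div_iff₀ (by positivity)).1 hw.2
  have hw1 : w ≤ 1 / 4 := by nlinarith [abs_nonneg β]
  obtain ⟨N, hN⟩ := hC n
  obtain ⟨k, M0, hB⟩ := bgd hw0 hw1 (2 * n + 12)
  obtain ⟨k', hk'⟩ := ch_bd hw0 (2 * n + 8)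
  obtain ⟨m, hm⟩ := amp_bd (2 * n + 12 + 1)
  obtain ⟨M, M1, M2, M3⟩ : ∃ M, M0 ≤ M ∧ 2 ^ k ≤ M ∧ 2 * n + 8 + k' + 1 ≤ M :=
    ⟨_, le_max_left _ _, le_max_of_le_right (le_max_left _ _), le_max_of_le_right (le_max_right _ _)⟩
  refine ⟨2 * n + 12 + 1, M * N + 5,
    fun T δ R G ν A l c π U α u hT hδ hg h hα hl hA hAl hu hz => ?_⟩
  obtain ⟨θ, hθ⟩ := th_ex hT hδ
  have hG := hg.hG
  have G0 : 0 < G := by linarith
  have G1 : 1 ≤ G := by linarith
  have l1 : 1 ≤ l := (one_le_pow₀ G1).trans hl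
  have l0 : 0 < l := by linarith
  have bg := hB M M1 T δ R G β c π θ U α hG hT hδ hg.nn h hα hθ
  have am := fun p hp i => (hm T δ R w G β c π U α p i hG hT hδ h hα hp).1
  set K := Kb θ R w U
  set a := ab θ U T α
  let r : X3 → Ix → ℝ := fun x i => u x i - U (0, x) i - wv A l (amp U T α) (0, x) i
  let z : X3 → Ix → ℝ := fun x i => ch R w (0, x) * r x i
  have s0 : ContDiff ℝ ∞ fun x : X3 => ((0, x) : R4) := contDiff_const.prodMk contDiff_id
  have rs : ∀ x ∈ Win R w 6, ∀ i, ContDiffAt ℝ ∞ (cmp r i) x := fun x hx i =>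
    (((hu i).contDiffAt ((win_open _ _ _).mem_nhds hx)).sub
      ((slab_sm h ((win_mem hT hδ).2 hx) i).comp x s0.contDiffAt)).sub
      ((contDiffAt_const.mul (contDiffAt_const.mul (contDiffAt_const.add contDiffAt_fst)).sin).mul
        ((am _ ((win_mem hT hδ).2 hx) i).comp x s0.contDiffAt))
  have r0 : ∀ x ∈ Win R w 6, x.1 ≤ R - w ∨ 2 ≤ ‖x.2‖ → r x = 0 := fun x hx k => by
    funext i
    have k1 : amp U T α (0, x) = 0 :=
      amp_zero hα (k.elim (fun k => .inl (by simpa using k)) fun k => .inr (.inr k))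
    simp [r, wv, (hz x hx).2.1 k, k1]
  have zw : ∀ x ∉ Win R w 6, ((0, x) : R4) ∉ Zc R w := fun x hx k =>
    hx ((win_mem hT hδ).1 (zc_mem hw0 k ⟨by linarith, by linarith⟩))
  have z0 : ∀ x : X3, ((0, x) : R4) ∉ Zc R w → z x = 0 := fun x hx => funext fun i => by
    simp only [z, ch_zero hw0 hx, zero_mul, Pi.zero_apply]
  have z1 : ∀ x : X3, x.1 ≤ R - w ∨ 2 ≤ ‖x.2‖ → z x = 0 := fun x k => by
    by_cases hx : x ∈ Win R w 6
    · funext i
      simp only [z, r0 x hx k, Pi.zero_apply, mul_zero]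
    · exact z0 x (zw x hx)
  have GM : G ≤ G ^ M := le_self_pow₀ G1 (by omega)
  have AE : A * (G ^ M) ^ N * G ^ 5 ≤ 1 := by
    rw [← pow_mul, mul_assoc, ← pow_add]
    exact (mul_le_mul_of_nonneg_right (le_mul_of_one_le_right hA.le l1) (by positivity)).trans hAl
  obtain ⟨δ1, hδ1, W, W1, W2, W3, W4⟩ := hN (T + δ / 2) (G ^ M) ν A l _ K a z (gro hg hT hδ M2) bg
    (by rw [← pow_mul]; exact (pow_le_pow_right₀ G1 (by omega)).trans hl) hA (le_trans (by
      rw [← pow_mul]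
      exact mul_le_mul_of_nonneg_left (pow_le_pow_right₀ G1 (by omega)) (by positivity)) hAl)
    (fun i => cut (win_open R w 6) (isCompact_Icc.prod (isCompact_closedBall (0 : ℝ × ℝ) (11 / 2)))
      (fun x hx => ⟨⟨(by linarith : R - 3 * w < R - 9 / 4 * w).trans_le hx.1.1,
        hx.1.2.trans_lt (by linarith : R + 13 / 4 * w < R + 4 * w)⟩,
        (mem_closedBall_zero_iff.1 hx.2).trans_lt (by norm_num)⟩)
      (fun x hx => (((ch_sm R w).comp s0).contDiffAt.mul (rs x hx i)).contDiffWithinAt)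
      fun x hx => congrFun (z0 x fun k => hx ⟨by simpa using k.1, mem_closedBall_zero_iff.2 k.2⟩) i)
    ⟨R + 2 * w, fun x hx => by
      rcases hx with hx | hx
      · rcases lt_abs.1 hx with hx | hx
        · exact z0 x fun k => by linarith [k.1.2]
        · by_cases k : x.1 ≤ R - w
          · exact z1 x (.inl k)
          · have : G ^ 2 ≤ G ^ M := pow_le_pow_right₀ G1 (by omega)
            nlinarith
      · exact z1 x (.inr (by linarith))⟩
    fun i x => by
      by_cases hx : x ∈ Win R w 6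
      · have b1 : B e 1 (2 * n + 8) (fun q => ch R w (L0 q + 0)) x (2 ^ k') :=
          B.aff L0 0 L0_e (hk' R _).1
        simp only [add_zero] at b1
        refine (B_Sa.1 (((b1.up l1).mul l0.le ((B_Sa.2 ⟨rs x hx i, (hz x hx).2.2 i⟩).mono l0.le
          (by omega) le_rfl)).mono l0.le le_rfl ?_)).2
        rw [← mul_assoc, ← pow_add, ← mul_div_assoc, mul_left_comm]
        refine div_le_div_of_nonneg_right (mul_le_mul_of_nonneg_left ?_ hA.le) l0.le
        refine le_trans ?_ (pow_le_pow_right₀ G1 M3)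
        rw [pow_succ G]
        exact mul_le_mul_of_nonneg_right (pow_le_pow_left₀ zero_le_two hG _) G0.le
      · refine (B_Sa.1 (B_of_zero l0.le (by positivity) ?_)).2
        filter_upwards [((zc_closed R w).preimage s0.continuous).isOpen_compl.mem_nhds (zw x hx)]
          with y hy using congrFun (z0 y hy) i
  set E := A * (G ^ M) ^ N / √l
  have E5 : E * G ^ 5 ≤ 1 := (mul_le_mul_of_nonneg_right (div_le_self (by positivity)
    (Real.one_le_sqrt.2 l1)) (by positivity)).trans AE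
  have E0 : 0 ≤ E := by positivity
  have E1 : E < G⁻¹ := by
    rw [← one_div, lt_div_iff₀ G0]
    have g4 : 16 ≤ G ^ 4 := le_trans (by norm_num) (pow_le_pow_left₀ zero_le_two hG 4)
    nlinarith [mul_nonneg E0 G0.le]
  have WE : ∀ p : R4, p.1 ∈ Icc 0 (T + δ / 2) → ∀ i, i ≠ a1 → i ≠ a2 → |W p i| ≤ E :=
    fun p hp i h1 h2 => by
      simpa [dxl, n0, cmp_app, wv, bg.pol p i h1 h2] using W4 p hp i [] (Nat.zero_le _)
  have KE : ∀ p : R4, p.1 ∈ Icc 0 (T + δ / 2) → ∀ i x, i ≠ a1 → i ≠ a2 →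
      (p ∈ Dm T δ R w → |U p i| ≤ |x|) → |(K + W) p i| ≤ |x| + G⁻¹ := fun p hp i x h1 h2 hx => by
    refine (abs_add_le _ _).trans (add_le_add ?_ ((WE p hp i h1 h2).trans E1.le))
    rw [show K p i = ch R w p * U p i from (hθ.eq hδ hp fun q => ch R w q * U q i).self_of_nhds,
      abs_mul]
    by_cases hq : p ∈ Zc R w
    · exact (mul_le_of_le_one_left (abs_nonneg _) (ch_abs R w p)).trans
        (hx (zc_mem hw0 hq ⟨by linarith [hp.1], by linarith [hp.2]⟩))
    · simp [ch_zero hw0 hq]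
  have g1 : G⁻¹ ≤ 1 := inv_le_one_of_one_le₀ G1
  obtain ⟨δ2, d0, d1, d2⟩ : ∃ δ2, 0 < δ2 ∧ δ2 ≤ δ1 ∧ δ2 ≤ δ / 2 :=
    ⟨_, lt_min hδ1 (half_pos hδ), min_le_left _ _, min_le_right _ _⟩
  set D := Box (-δ2) (T + δ / 2) (R - 2 * w) (R + 3 * w) 5
  have DD : ∀ p ∈ D, p ∈ Dm T δ R w := fun p hp => ⟨⟨by linarith [hp.1.1], by linarith [hp.1.2]⟩,
    ⟨by linarith [hp.2.1.1], by linarith [hp.2.1.2]⟩, by linarith [hp.2.2]⟩
  have D1 : ∀ p ∈ D, θ p.1 = 1 ∧ ch R w p = 1 := fun p hp =>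
    ⟨hθ.one _ ⟨by linarith [hp.1.1], by linarith [hp.1.2]⟩,
      ch_one hw0 (Ioo_subset_Icc_self hp.2.1) hp.2.2.le⟩
  have KU : ∀ p ∈ D, K p = U p := fun p hp => funext fun i => by
    simp only [K, Kb, D1 p hp, one_mul]
  have aU : ∀ p ∈ D, wv A l a p = wv A l (amp U T α) p := fun p hp => funext fun i => by
    simp only [wv, a, ab, D1 p hp, one_mul]
  have u0 : ∀ x, ((0, x) : R4) ∈ D → (K + W) (0, x) = u x := fun x hx => funext fun i => by
    simp only [Pi.add_apply, W2, KU _ hx, aU _ hx, z, r, D1 _ hx]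
    ring
  have Do : IsOpen D := box_open _ _ _ _ _
  obtain ⟨δ', hδ', F1, F2⟩ := hS (T + δ / 2) δ2 R w (32 * (|β| + 1)) (fun t => |π t| + G⁻¹) K W
    (by linarith) d0 hw0 (by positivity) (h.cπ.abs.add continuous_const)
    (by
      have a1 := mul_le_mul_of_nonneg_left (travel hg h hT hδ)
        (show 0 ≤ 2 / (32 * (|β| + 1)) by positivity)
      have a2 : 2 / (32 * (|β| + 1)) * (2 * (|β| + 1)) = 1 / 8 := by
        field_simp
        norm_num
      linarith)
    bg.sK W1 (fun p hp => W3 p ⟨by linarith [hp.1], hp.2⟩)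
    (fun p hp => ⟨(KE p hp b1 β (by decide) (by decide) fun hq =>
        (h.bd p hq).2.2.1.trans (le_abs_self _)).trans (by linarith [abs_nonneg β]),
      (KE p hp b2 β (by decide) (by decide) fun hq =>
        (h.bd p hq).2.2.2.1.trans (le_abs_self _)).trans (by linarith [abs_nonneg β]),
      fun i hi => KE p hp i _ (by rintro rfl; simp at hi) (by rintro rfl; simp at hi) fun hq =>
        ((h.bd p hq).2.2.2.2.1 i hi).trans (le_abs_self _)⟩)
    (fun p hp => by
      have b := h.bd p (DD p hp)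
      rw [dfr_congr (eventually_of_mem (Do.mem_nhds hp) KU), Pi.add_apply, KU p hp]
      refine ⟨(h.fu.2 p (DD p hp)).2.2, (inv_pos.2 G0).trans_le b.1,
        (inv_pos.2 G0).trans_le b.2.1, fun h0 => ⟨?_, det_pos hG E5 b.2.1
          (fun i => (slab_B h (DD p hp) i).zero) fun i hi => WE p ⟨h0, hp.1.2.le⟩ i
            (by rintro rfl; simp at hi) (by rintro rfl; simp at hi)⟩⟩
      rw [Pi.add_apply]
      linarith [(abs_le.1 (WE p ⟨h0, hp.1.2.le⟩ O (by decide) (by decide))).1, b.1])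
    (fun x hx => by
      have k1 : amp U T α (0, x) = 0 :=
        amp_zero hα (hx.elim (fun k => .inl (by simpa using k)) fun k => .inr (.inr k))
      funext i
      simp [W2, z1 x hx, wv, a, ab, k1])
    fun x hx => cn_congr (u' := u) (eventually_of_mem ((Do.preimage s0.continuous).mem_nhds hx) u0)
      (hz x ((win_mem hT hδ).1 (DD _ hx))).1
  have sub : Box (-δ') (T + δ') (R - 2 * w) (R + 5 / 2 * w) (9 / 2) ⊆
      Box (-δ') (T + δ / 2) (R - 2 * w) (R + 5 / 2 * w) (9 / 2) := fun p hp =>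
    ⟨⟨hp.1.1, by linarith [hp.1.2, hδ'.2]⟩, hp.2⟩
  refine ⟨δ', ⟨hδ'.1, by linarith [hδ'.2]⟩, K + W, F1.mono sub, fun p hp => ?_⟩
  have pD : p ∈ D := ⟨⟨by linarith [hp.1.1, hδ'.2], (sub hp).1.2⟩,
    ⟨hp.2.1.1, by linarith [hp.2.1.2]⟩, by linarith [hp.2.2]⟩
  refine ⟨(F2 p (sub hp)).1, fun k => ?_, fun k => ?_, fun k i => ?_⟩
  · rw [Pi.add_apply, (F2 p (sub hp)).2 k, add_zero, KU p pD]
  · obtain ⟨t, x⟩ := p
    obtain rfl : t = 0 := k
    exact u0 x pD
  · refine Pa_congr (f := cmp (W - wv A l a) i) (fun s hs => (W4 p ⟨k, pD.1.2.le⟩ i s hs).trans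
      (mul_le_mul_of_nonneg_right (div_le_div_of_nonneg_right (mul_le_mul_of_nonneg_left ?_ hA.le)
        (Real.sqrt_nonneg _)) (by positivity))) ?_
    · rw [← pow_mul]
      exact pow_le_pow_right₀ G1 (by omega)
    · filter_upwards [Do.mem_nhds pD] with q hq
      simp only [cmp_app, Pi.sub_apply, Pi.add_apply, KU q hq, aU q hq]
      ring

end Vale.Agent.P354EN
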